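import Vale.Agent.P141.H319.Groth

/-! # Product gauges and the extraction lemma -/

namespace Vale.Agent.P141.H319

set_option linter.unusedSectionVars false

open Finset

variable {X Y : Type*} [Fintype X] [Fintype Y]

/-- weighted `L¹` norm -/
def L1 (p : X → ℝ) (P : X → ℝ) : ℝ := ∑ x, p x * |P x|

/-- sup norm -/
noncomputable def Li (P : X → ℝ) : ℝ := ⨆ x, |P x|

lemma Li_nonneg (P : X → ℝ) : 0 ≤ Li P := Real.iSup_nonneg fun _ => abs_nonneg _

lemma le_Li (P : X → ℝ) (x : X) : |P x| ≤ Li P :=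
  le_ciSup (f := fun x => |P x|) (Set.finite_range _).bddAbove x

lemma Li_le {P : X → ℝ} {c : ℝ} (hc : 0 ≤ c) (h : ∀ x, |P x| ≤ c) : Li P ≤ c :=
  Real.iSup_le h hc

lemma L1_nonneg {p : X → ℝ} (hp : ∀ x, 0 < p x) (P : X → ℝ) : 0 ≤ L1 p P :=
  sum_nonneg fun x _ => mul_nonneg (hp x).le (abs_nonneg _)

/-- the product gauge: for `P = α ^ 2` this is `‖α‖₂ ^ (1 - ε) * ‖α‖_∞ ^ ε` -/
noncomputable def pg (p : X → ℝ) (hp : ∀ x, 0 < p x) (ε : ℝ) (h0 : 0 ≤ ε) (h1 : ε ≤ 1) :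
    Gauge X where
  N P := L1 p P ^ ((1 - ε) / 2) * Li P ^ (ε / 2)
  nonneg P := mul_nonneg (Real.rpow_nonneg (L1_nonneg hp P) _) (Real.rpow_nonneg (Li_nonneg P) _)
  mono P Q hP hPQ := by
    have e1 : L1 p P ≤ L1 p Q := by
      unfold L1
      refine sum_le_sum fun x _ => ?_
      rw [abs_of_nonneg (hP x), abs_of_nonneg ((hP x).trans (hPQ x))]
      exact mul_le_mul_of_nonneg_left (hPQ x) (hp x).le
    have e2 : Li P ≤ Li Q := by
      refine Li_le (Li_nonneg _) fun x => ?_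
      refine le_trans ?_ (le_Li Q x)
      rw [abs_of_nonneg (hP x), abs_of_nonneg ((hP x).trans (hPQ x))]
      exact hPQ x
    refine mul_le_mul (Real.rpow_le_rpow (L1_nonneg hp P) e1 (by linarith))
      (Real.rpow_le_rpow (Li_nonneg P) e2 (by linarith)) (Real.rpow_nonneg (Li_nonneg P) _)
      (Real.rpow_nonneg (L1_nonneg hp Q) _)
  homog c P hc hP := by
    have e1 : L1 p (fun x => c ^ 2 * P x) = c ^ 2 * L1 p P := by
      unfold L1
      rw [mul_sum]
      refine sum_congr rfl fun x _ => ?_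
      rw [abs_mul, abs_of_nonneg (sq_nonneg c)]
      ring
    have e2 : Li (fun x => c ^ 2 * P x) = c ^ 2 * Li P := by
      unfold Li
      simp_rw [abs_mul, abs_of_nonneg (sq_nonneg c)]
      rw [Real.mul_iSup_of_nonneg (sq_nonneg c)]
    have hc2 : (0:ℝ) ≤ c ^ 2 := sq_nonneg c
    simp only [e1, e2]
    rw [Real.mul_rpow hc2 (L1_nonneg hp P), Real.mul_rpow hc2 (Li_nonneg P)]
    have e3 : (c ^ 2) ^ ((1 - ε) / 2) * (c ^ 2) ^ (ε / 2) = c := by
      rw [← Real.rpow_add_of_nonneg hc2 (by linarith) (by linarith)]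
      have : (1 - ε) / 2 + ε / 2 = 1 / 2 := by ring
      rw [this, ← Real.sqrt_eq_rpow, Real.sqrt_sq hc]
    calc _ = ((c ^ 2) ^ ((1 - ε) / 2) * (c ^ 2) ^ (ε / 2))
          * (L1 p P ^ ((1 - ε) / 2) * Li P ^ (ε / 2)) := by ring
      _ = _ := by rw [e3]
  bd := by
    rcases isEmpty_or_nonempty X with hX | hX
    · exact ⟨0, le_rfl, fun P _ x => hX.elim x⟩
    · obtain ⟨x0, hx0⟩ := Finite.exists_min p
      have hm : 0 < p x0 := hp x0
      refine ⟨((1 / p x0) ^ ((1 - ε) / 2)), by positivity, fun P hP x => ?_⟩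
      have e1 : Li P ≤ 1 / p x0 * L1 p P := by
        refine Li_le (mul_nonneg (by positivity) (L1_nonneg hp P)) fun y => ?_
        have : p y * |P y| ≤ L1 p P :=
          single_le_sum (f := fun x => p x * |P x|)
            (fun x _ => mul_nonneg (hp x).le (abs_nonneg _)) (mem_univ y)
        rw [one_div, ← div_eq_inv_mul, le_div_iff₀ hm]
        calc |P y| * p x0 ≤ |P y| * p y := by gcongr; exact hx0 y
          _ = p y * |P y| := by ring
          _ ≤ _ := this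
      have e2 : P x ≤ Li P := (le_abs_self _).trans (le_Li P x)
      have e3 : ∀ t : ℝ, 0 ≤ t → ∀ s : ℝ, (t ^ (s / 2)) ^ 2 = t ^ s := by
        intro t ht s
        rw [← Real.rpow_natCast, ← Real.rpow_mul ht]
        congr 1
        push_cast
        ring
      have e4 : (0:ℝ) ≤ 1 / p x0 := by positivity
      rw [mul_pow, mul_pow, e3 _ e4, e3 _ (L1_nonneg hp P), e3 _ (Li_nonneg P), ← mul_assoc,
        ← Real.mul_rpow e4 (L1_nonneg hp P)]
      calc P x ≤ Li P := e2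
        _ = Li P ^ (1 - ε) * Li P ^ ε := by
            rw [← Real.rpow_add_of_nonneg (Li_nonneg P) (by linarith) h0]
            simp
        _ ≤ _ := by
            have h5 := Real.rpow_nonneg (Li_nonneg P) ε
            have h6 := Real.rpow_le_rpow (Li_nonneg P) e1 (by linarith : (0:ℝ) ≤ 1 - ε)
            exact mul_le_mul_of_nonneg_right h6 h5

lemma pg_N_le {p : X → ℝ} {hp : ∀ x, 0 < p x} {ε : ℝ} {h0 : 0 ≤ ε} {h1 : ε ≤ 1} {P : X → ℝ}
    {s m : ℝ} (hs : L1 p P ≤ s) (hm : Li P ≤ m) :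
    (pg p hp ε h0 h1).N P ≤ s ^ ((1 - ε) / 2) * m ^ (ε / 2) := by
  change L1 p P ^ ((1 - ε) / 2) * Li P ^ (ε / 2) ≤ _
  exact mul_le_mul (Real.rpow_le_rpow (L1_nonneg hp P) hs (by linarith))
    (Real.rpow_le_rpow (Li_nonneg P) hm (by linarith)) (Real.rpow_nonneg (Li_nonneg P) _)
    (Real.rpow_nonneg ((L1_nonneg hp P).trans hs) _)

/-- weighted `L²` norm -/
noncomputable def L2 (p : X → ℝ) (α : X → ℝ) : ℝ := √(∑ x, p x * α x ^ 2)

/-- **Extraction lemma.** A bilinear form which is dominated (on vectors) by product gauges has,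
off two small sets, an operator norm bound. -/
theorem extraction (a : X → Y → ℝ) {p : X → ℝ} {q : Y → ℝ} (hp : ∀ x, 0 < p x) (hq : ∀ y, 0 < q y)
    {ε : ℝ} (h0 : 0 < ε) (h1 : ε ≤ 1) {G κ σ μ : ℝ} (hG : 0 ≤ G) (hκ : 0 < κ) (hσ : 0 < σ)
    (hμ : 0 < μ) (hGσ : G ≤ κ * σ ^ ε) (hVB : VB a (pg p hp ε h0.le h1) (pg q hq ε h0.le h1) G) :
    ∃ (B₁ : Finset X) (B₂ : Finset Y), ∑ x ∈ B₁, p x ≤ 2 * (μ ^ 2 * σ) ∧
      ∑ y ∈ B₂, q y ≤ 2 * ((μ⁻¹) ^ 2 * σ) ∧ ∀ (α : X → ℝ) (β : Y → ℝ), (∀ x ∈ B₁, α x = 0) →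
        (∀ y ∈ B₂, β y = 0) → bil a α β ≤ κ * L2 p α * L2 q β := by
  classical
  -- the step
  obtain ⟨l, hl0, hlp, hlq⟩ : ∃ l : ℝ, 0 < l ∧ (∀ x, l ^ 2 * μ ^ 2 ≤ 1 / 2 * p x) ∧
      (∀ y, l ^ 2 * (μ⁻¹) ^ 2 ≤ 1 / 2 * q y) := by
    have A : ∃ c : ℝ, 0 < c ∧ ∀ x, c ≤ 1 / 2 * p x := by
      rcases isEmpty_or_nonempty X with hX | hX
      · exact ⟨1, one_pos, fun x => hX.elim x⟩
      · obtain ⟨x0, hx0⟩ := Finite.exists_min p
        exact ⟨1 / 2 * p x0, by have := hp x0; positivity, fun x => by have := hx0 x; linarith⟩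
    have B : ∃ c : ℝ, 0 < c ∧ ∀ x, c ≤ 1 / 2 * q x := by
      rcases isEmpty_or_nonempty Y with hX | hX
      · exact ⟨1, one_pos, fun x => hX.elim x⟩
      · obtain ⟨x0, hx0⟩ := Finite.exists_min q
        exact ⟨1 / 2 * q x0, by have := hq x0; positivity, fun x => by have := hx0 x; linarith⟩
    obtain ⟨c, hc, hc'⟩ := A
    obtain ⟨d, hd, hd'⟩ := B
    set m := min (c / μ ^ 2) (d / (μ⁻¹) ^ 2) with hm
    have hm0 : 0 < m := lt_min (by positivity) (by positivity)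
    refine ⟨√m, Real.sqrt_pos.2 hm0, fun x => ?_, fun y => ?_⟩
    · rw [Real.sq_sqrt hm0.le]
      have : m * μ ^ 2 ≤ c / μ ^ 2 * μ ^ 2 := by gcongr; exact min_le_left _ _
      have h3 : c / μ ^ 2 * μ ^ 2 = c := by field_simp
      linarith [hc' x]
    · rw [Real.sq_sqrt hm0.le]
      have : m * (μ⁻¹) ^ 2 ≤ d / (μ⁻¹) ^ 2 * (μ⁻¹) ^ 2 := by gcongr; exact min_le_right _ _
      have h3 : d / (μ⁻¹) ^ 2 * (μ⁻¹) ^ 2 = d := by field_simp
      linarith [hd' y]
  set St : ℕ → Prop := fun N => ∃ (α : Fin N → X → ℝ) (β : Fin N → Y → ℝ),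
    (∀ x, ∑ r, α r x ^ 2 ≤ 1) ∧ (∀ y, ∑ r, β r y ^ 2 ≤ 1) ∧
    (∑ x, p x * ∑ r, α r x ^ 2 ≤ N * l ^ 2 * μ ^ 2) ∧
    (∑ y, q y * ∑ r, β r y ^ 2 ≤ N * l ^ 2 * (μ⁻¹) ^ 2) ∧
    κ * (N * l ^ 2) ≤ ∑ r, bil a (α r) (β r) with hSt
  have hSt0 : St 0 := ⟨fun r => r.elim0, fun r => r.elim0, by simp, by simp, by simp, by simp,
    by simp⟩
  have hbd : ∀ N, St N → N * l ^ 2 ≤ σ := by
    rintro N ⟨α, β, hα, hβ, hαp, hβq, hs⟩
    rcases Nat.eq_zero_or_pos N with rfl | hN
    · simpa using hσ.le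
    set s : ℝ := N * l ^ 2 with hsdef
    have hs0 : 0 < s := by have : (0:ℝ) < N := by exact_mod_cast hN
                           positivity
    have hP0 : ∀ x, 0 ≤ ∑ r, α r x ^ 2 := fun x => sum_nonneg fun r _ => sq_nonneg _
    have hQ0 : ∀ x, 0 ≤ ∑ r, β r x ^ 2 := fun x => sum_nonneg fun r _ => sq_nonneg _
    have e1 : L1 p (fun x => ∑ r, α r x ^ 2) ≤ s * μ ^ 2 := by
      unfold L1
      simp_rw [abs_of_nonneg (hP0 _)]
      exact hαp
    have e2 : L1 q (fun x => ∑ r, β r x ^ 2) ≤ s * (μ⁻¹) ^ 2 := by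
      unfold L1
      simp_rw [abs_of_nonneg (hQ0 _)]
      exact hβq
    have e3 : Li (fun x => ∑ r, α r x ^ 2) ≤ 1 :=
      Li_le zero_le_one fun x => by rw [abs_of_nonneg (hP0 _)]; exact hα x
    have e4 : Li (fun x => ∑ r, β r x ^ 2) ≤ 1 :=
      Li_le zero_le_one fun x => by rw [abs_of_nonneg (hQ0 _)]; exact hβ x
    have e5 := hVB (Fin N) α β
    have e6 := pg_N_le (hp := hp) (h0 := h0.le) (h1 := h1) e1 e3
    have e7 := pg_N_le (hp := hq) (h0 := h0.le) (h1 := h1) e2 e4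
    rw [Real.one_rpow, mul_one] at e6 e7
    have e8 : κ * s ≤ G * (s * μ ^ 2) ^ ((1 - ε) / 2) * (s * (μ⁻¹) ^ 2) ^ ((1 - ε) / 2) := by
      refine hs.trans (e5.trans ?_)
      have := (pg q hq ε h0.le h1).nonneg (fun y => ∑ r, β r y ^ 2)
      have := (pg p hp ε h0.le h1).nonneg (fun y => ∑ r, α r y ^ 2)
      gcongr
    have e9 : (s * μ ^ 2) ^ ((1 - ε) / 2) * (s * (μ⁻¹) ^ 2) ^ ((1 - ε) / 2) = s ^ (1 - ε) := by
      rw [← Real.mul_rpow (by positivity) (by positivity)]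
      have : s * μ ^ 2 * (s * (μ⁻¹) ^ 2) = s ^ 2 := by field_simp
      rw [this, ← Real.rpow_natCast, ← Real.rpow_mul hs0.le]
      congr 1
      push_cast
      ring
    rw [mul_assoc, e9] at e8
    have e10 : s = s ^ ε * s ^ (1 - ε) := by
      rw [← Real.rpow_add hs0]; simp
    have e11 : κ * (s ^ ε * s ^ (1 - ε)) ≤ κ * σ ^ ε * s ^ (1 - ε) := by
      rw [← e10]
      refine e8.trans ?_
      gcongr
    have e12 : s ^ ε ≤ σ ^ ε := by
      have e13 : 0 < κ * s ^ (1 - ε) := by positivity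
      refine le_of_mul_le_mul_left ?_ e13
      calc κ * s ^ (1 - ε) * s ^ ε = κ * (s ^ ε * s ^ (1 - ε)) := by ring
        _ ≤ κ * σ ^ ε * s ^ (1 - ε) := e11
        _ = _ := by ring
    exact (Real.rpow_le_rpow_iff hs0.le hσ.le h0).1 e12
  -- the largest family
  have hfin : ∀ N, St N → N ≤ ⌊σ / l ^ 2⌋₊ := by
    intro N hN
    refine Nat.le_floor ?_
    rw [le_div_iff₀ (by positivity)]
    exact hbd N hN
  set N := Nat.findGreatest St ⌊σ / l ^ 2⌋₊ with hNdef
  have hStN : St N := Nat.findGreatest_spec (Nat.zero_le _) hSt0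
  have hmax : ¬ St (N + 1) := by
    intro h
    have h3 := hfin _ h
    have h4 := Nat.le_findGreatest (P := St) h3 h
    omega
  have hNs := hbd N hStN
  obtain ⟨α, β, hα, hβ, hαp, hβq, hs⟩ := hStN
  have hP0 : ∀ x, 0 ≤ ∑ r, α r x ^ 2 := fun x => sum_nonneg fun r _ => sq_nonneg _
  have hQ0 : ∀ x, 0 ≤ ∑ r, β r x ^ 2 := fun x => sum_nonneg fun r _ => sq_nonneg _
  refine ⟨univ.filter fun x => 1 / 2 < ∑ r, α r x ^ 2, univ.filter fun y => 1 / 2 < ∑ r, β r y ^ 2,
    ?_, ?_, ?_⟩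
  · have e1 : ∑ x ∈ univ.filter (fun x => 1 / 2 < ∑ r, α r x ^ 2), p x
        ≤ ∑ x, 2 * (p x * ∑ r, α r x ^ 2) := by
      rw [sum_filter]
      refine sum_le_sum fun x _ => ?_
      have := hp x
      have := hP0 x
      split_ifs with h
      · nlinarith
      · positivity
    rw [← mul_sum] at e1
    have e2 : (N:ℝ) * l ^ 2 * μ ^ 2 ≤ σ * μ ^ 2 := by gcongr
    linarith
  · have e1 : ∑ x ∈ univ.filter (fun x => 1 / 2 < ∑ r, β r x ^ 2), q x
        ≤ ∑ x, 2 * (q x * ∑ r, β r x ^ 2) := by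
      rw [sum_filter]
      refine sum_le_sum fun x _ => ?_
      have := hq x
      have := hQ0 x
      split_ifs with h
      · nlinarith
      · positivity
    rw [← mul_sum] at e1
    have e2 : (N:ℝ) * l ^ 2 * (μ⁻¹) ^ 2 ≤ σ * (μ⁻¹) ^ 2 := by gcongr
    linarith
  · intro u v hu hv
    by_contra hcon
    push Not at hcon
    refine hmax ?_
    have hu0 : 0 < L2 p u := by
      rcases (Real.sqrt_nonneg (∑ x, p x * u x ^ 2)).eq_or_lt with h | h
      · exfalso
        have h3 : ∑ x, p x * u x ^ 2 = 0 := by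
          have h4 : 0 ≤ ∑ x, p x * u x ^ 2 :=
            sum_nonneg fun x _ => mul_nonneg (hp x).le (sq_nonneg _)
          exact (Real.sqrt_eq_zero h4).1 h.symm
        have h5 : ∀ x, u x = 0 := by
          intro x
          have := (sum_eq_zero_iff_of_nonneg
            (fun x _ => mul_nonneg (hp x).le (sq_nonneg (u x)))).1 h3 x (mem_univ x)
          have h6 := (mul_eq_zero.1 this).resolve_left (hp x).ne'
          exact pow_eq_zero_iff (two_ne_zero) |>.1 h6
        have h6 : bil a u v = 0 := by simp [bil, h5]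
        have h7 : L2 p u = 0 := h.symm
        rw [h6, h7] at hcon
        simp at hcon
      · exact h
    have hv0 : 0 < L2 q v := by
      rcases (Real.sqrt_nonneg (∑ x, q x * v x ^ 2)).eq_or_lt with h | h
      · exfalso
        have h3 : ∑ x, q x * v x ^ 2 = 0 := by
          have h4 : 0 ≤ ∑ x, q x * v x ^ 2 :=
            sum_nonneg fun x _ => mul_nonneg (hq x).le (sq_nonneg _)
          exact (Real.sqrt_eq_zero h4).1 h.symm
        have h5 : ∀ x, v x = 0 := by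
          intro x
          have := (sum_eq_zero_iff_of_nonneg
            (fun x _ => mul_nonneg (hq x).le (sq_nonneg (v x)))).1 h3 x (mem_univ x)
          have h6 := (mul_eq_zero.1 this).resolve_left (hq x).ne'
          exact pow_eq_zero_iff (two_ne_zero) |>.1 h6
        have h6 : bil a u v = 0 := by simp [bil, h5]
        have h7 : L2 q v = 0 := h.symm
        rw [h6, h7] at hcon
        simp at hcon
      · exact h
    have hu2 : L2 p u ^ 2 = ∑ x, p x * u x ^ 2 :=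
      Real.sq_sqrt (sum_nonneg fun x _ => mul_nonneg (hp x).le (sq_nonneg _))
    have hv2 : L2 q v ^ 2 = ∑ x, q x * v x ^ 2 :=
      Real.sq_sqrt (sum_nonneg fun x _ => mul_nonneg (hq x).le (sq_nonneg _))
    set c : ℝ := l * μ / L2 p u with hc
    set d : ℝ := l * μ⁻¹ / L2 q v with hd
    have hcu : c ^ 2 * L2 p u ^ 2 = l ^ 2 * μ ^ 2 := by rw [hc]; field_simp
    have hdv : d ^ 2 * L2 q v ^ 2 = l ^ 2 * (μ⁻¹) ^ 2 := by rw [hd]; field_simp
    -- pointwise bounds
    have pu : ∀ x, (c * u x) ^ 2 ≤ 1 / 2 := by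
      intro x
      have h3 : p x * u x ^ 2 ≤ L2 p u ^ 2 := by
        rw [hu2]
        exact single_le_sum (f := fun x => p x * u x ^ 2)
          (fun x _ => mul_nonneg (hp x).le (sq_nonneg _)) (mem_univ x)
      have h4 : p x * (c * u x) ^ 2 ≤ 1 / 2 * p x := by
        calc p x * (c * u x) ^ 2 = c ^ 2 * (p x * u x ^ 2) := by ring
          _ ≤ c ^ 2 * L2 p u ^ 2 := by gcongr
          _ = l ^ 2 * μ ^ 2 := hcu
          _ ≤ _ := hlp x
      nlinarith [hp x]
    have pv : ∀ x, (d * v x) ^ 2 ≤ 1 / 2 := by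
      intro x
      have h3 : q x * v x ^ 2 ≤ L2 q v ^ 2 := by
        rw [hv2]
        exact single_le_sum (f := fun x => q x * v x ^ 2)
          (fun x _ => mul_nonneg (hq x).le (sq_nonneg _)) (mem_univ x)
      have h4 : q x * (d * v x) ^ 2 ≤ 1 / 2 * q x := by
        calc q x * (d * v x) ^ 2 = d ^ 2 * (q x * v x ^ 2) := by ring
          _ ≤ d ^ 2 * L2 q v ^ 2 := by gcongr
          _ = l ^ 2 * (μ⁻¹) ^ 2 := hdv
          _ ≤ _ := hlq x
      nlinarith [hq x]
    refine ⟨Fin.cons (fun x => c * u x) α, Fin.cons (fun y => d * v y) β, ?_, ?_, ?_, ?_, ?_⟩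
    · intro x
      rw [Fin.sum_univ_succ]
      simp only [Fin.cons_zero, Fin.cons_succ]
      by_cases hx : 1 / 2 < ∑ r, α r x ^ 2
      · rw [hu x (mem_filter.2 ⟨mem_univ _, hx⟩)]
        have := hα x
        simpa using this
      · push Not at hx
        have := pu x
        linarith
    · intro x
      rw [Fin.sum_univ_succ]
      simp only [Fin.cons_zero, Fin.cons_succ]
      by_cases hx : 1 / 2 < ∑ r, β r x ^ 2
      · rw [hv x (mem_filter.2 ⟨mem_univ _, hx⟩)]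
        have := hβ x
        simpa using this
      · push Not at hx
        have := pv x
        linarith
    · simp_rw [Fin.sum_univ_succ, Fin.cons_zero, Fin.cons_succ, mul_add, sum_add_distrib]
      have h3 : ∑ x, p x * (c * u x) ^ 2 = l ^ 2 * μ ^ 2 := by
        rw [← hcu, hu2, mul_sum]
        refine sum_congr rfl fun x _ => ?_
        ring
      rw [h3]
      push_cast
      linarith
    · simp_rw [Fin.sum_univ_succ, Fin.cons_zero, Fin.cons_succ, mul_add, sum_add_distrib]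
      have h3 : ∑ x, q x * (d * v x) ^ 2 = l ^ 2 * (μ⁻¹) ^ 2 := by
        rw [← hdv, hv2, mul_sum]
        refine sum_congr rfl fun x _ => ?_
        ring
      rw [h3]
      push_cast
      linarith
    · rw [Fin.sum_univ_succ]
      simp only [Fin.cons_zero, Fin.cons_succ]
      rw [bil_smul]
      have h3 : κ * l ^ 2 ≤ c * d * bil a u v := by
        have h4 : c * d * (κ * L2 p u * L2 q v) = κ * l ^ 2 := by
          rw [hc, hd]
          field_simp
        rw [← h4]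
        have : 0 < c * d := by positivity
        gcongr
      push_cast
      linarith

end Vale.Agent.P141.H319
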