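import Vale.Agent.P141.H319.Rad

/-! # Vector tests (Grothendieck's inequality by truncation) -/

namespace Vale.Agent.P141.H319

set_option linter.unusedSectionVars false

open Finset

/-- A monotone gauge, homogeneous of degree `1/2`, on nonnegative functions on a finite set (to be
applied to squares). -/
structure Gauge (X : Type*) where
  /-- the gauge -/
  N : (X → ℝ) → ℝ
  nonneg : ∀ P, 0 ≤ N P
  mono : ∀ P Q : X → ℝ, (∀ x, 0 ≤ P x) → (∀ x, P x ≤ Q x) → N P ≤ N Q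
  homog : ∀ (c : ℝ) (P : X → ℝ), 0 ≤ c → (∀ x, 0 ≤ P x) → N (fun x => c ^ 2 * P x) = c * N P
  bd : ∃ C : ℝ, 0 ≤ C ∧ ∀ P : X → ℝ, (∀ x, 0 ≤ P x) → ∀ x, P x ≤ (C * N P) ^ 2

variable {X Y : Type*} [Fintype X] [Fintype Y]

/-- the bilinear form of a matrix -/
def bil (a : X → Y → ℝ) (α : X → ℝ) (β : Y → ℝ) : ℝ := ∑ x, ∑ y, a x y * α x * β y

/-- domination for vectors of functions, with constant `G` -/
def VB (a : X → Y → ℝ) (N₁ : Gauge X) (N₂ : Gauge Y) (G : ℝ) : Prop :=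
  ∀ (ι : Type) [Fintype ι] (α : ι → X → ℝ) (β : ι → Y → ℝ),
    ∑ r, bil a (α r) (β r) ≤
      G * N₁.N (fun x => ∑ r, α r x ^ 2) * N₂.N (fun y => ∑ r, β r y ^ 2)

lemma bil_add_left (a : X → Y → ℝ) (α α' : X → ℝ) (β : Y → ℝ) :
    bil a (fun x => α x + α' x) β = bil a α β + bil a α' β := by
  simp only [bil, ← sum_add_distrib]
  refine sum_congr rfl fun x _ => sum_congr rfl fun y _ => ?_
  ring

lemma bil_add_right (a : X → Y → ℝ) (α : X → ℝ) (β β' : Y → ℝ) :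
    bil a α (fun y => β y + β' y) = bil a α β + bil a α β' := by
  simp only [bil, ← sum_add_distrib]
  refine sum_congr rfl fun x _ => sum_congr rfl fun y _ => ?_
  ring

lemma bil_smul (a : X → Y → ℝ) (c d : ℝ) (α : X → ℝ) (β : Y → ℝ) :
    bil a (fun x => c * α x) (fun y => d * β y) = c * d * bil a α β := by
  simp only [bil, mul_sum]
  refine sum_congr rfl fun x _ => sum_congr rfl fun y _ => ?_
  ring

/-- a trivial bound -/
lemma exists_VB (a : X → Y → ℝ) (N₁ : Gauge X) (N₂ : Gauge Y) : ∃ G, 0 ≤ G ∧ VB a N₁ N₂ G := by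
  obtain ⟨C, hC, hC'⟩ := N₁.bd
  obtain ⟨D, hD, hD'⟩ := N₂.bd
  refine ⟨∑ x, ∑ y, |a x y| * (C * D), ?_, ?_⟩
  · exact sum_nonneg fun x _ => sum_nonneg fun y _ => by positivity
  · intro ι _ α β
    set P : X → ℝ := fun x => ∑ r, α r x ^ 2 with hP
    set Q : Y → ℝ := fun y => ∑ r, β r y ^ 2 with hQ
    have hP0 : ∀ x, 0 ≤ P x := fun x => sum_nonneg fun r _ => sq_nonneg _
    have hQ0 : ∀ x, 0 ≤ Q x := fun x => sum_nonneg fun r _ => sq_nonneg _
    have h1 : ∑ r, bil a (α r) (β r) = ∑ x, ∑ y, a x y * ∑ r, α r x * β r y := by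
      simp only [bil, mul_sum]
      rw [sum_comm]
      refine sum_congr rfl fun x _ => ?_
      rw [sum_comm]
      refine sum_congr rfl fun y _ => sum_congr rfl fun r _ => ?_
      ring
    have h2 : ∀ x y, |∑ r, α r x * β r y| ≤ (C * N₁.N P) * (D * N₂.N Q) := by
      intro x y
      have h3 : (∑ r, α r x * β r y) ^ 2 ≤ P x * Q y := sum_mul_sq_le_sq_mul_sq _ _ _
      have h4 : P x * Q y ≤ ((C * N₁.N P) * (D * N₂.N Q)) ^ 2 := by
        rw [mul_pow]
        exact mul_le_mul (hC' P hP0 x) (hD' Q hQ0 y) (hQ0 y) (sq_nonneg _)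
      exact abs_le_of_sq_le_sq (h3.trans h4)
        (mul_nonneg (mul_nonneg hC (N₁.nonneg _)) (mul_nonneg hD (N₂.nonneg _)))
    rw [h1, sum_mul, sum_mul]
    refine sum_le_sum fun x _ => ?_
    rw [sum_mul, sum_mul]
    refine sum_le_sum fun y _ => ?_
    calc a x y * ∑ r, α r x * β r y ≤ |a x y| * |∑ r, α r x * β r y| := by
          rw [← abs_mul]; exact le_abs_self _
      _ ≤ |a x y| * ((C * N₁.N P) * (D * N₂.N Q)) := by gcongr; exact h2 x y
      _ = _ := by ring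

section Step

variable {ι : Type} [Fintype ι] [DecidableEq ι]

/-- truncated part -/
noncomputable def lo (M P x : ℝ) : ℝ := if x ^ 2 ≤ M ^ 2 * P then x else 0

/-- tail -/
noncomputable def hi (M P x : ℝ) : ℝ := if x ^ 2 ≤ M ^ 2 * P then 0 else x

lemma lo_add_hi (M P x : ℝ) : lo M P x + hi M P x = x := by
  unfold lo hi; split_ifs <;> simp

lemma lo_sq_le (M : ℝ) {P : ℝ} (hP : 0 ≤ P) (x : ℝ) : lo M P x ^ 2 ≤ M ^ 2 * P := by
  unfold lo; split_ifs with h
  · exact h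
  · simpa using by positivity

lemma lo_sq_le' (M P x : ℝ) : lo M P x ^ 2 ≤ x ^ 2 := by
  unfold lo; split_ifs with h
  · exact le_rfl
  · simpa using sq_nonneg x

lemma hi_sq_le' (M P x : ℝ) : hi M P x ^ 2 ≤ x ^ 2 := by
  unfold hi; split_ifs with h
  · simpa using sq_nonneg x
  · exact le_rfl

lemma hi_sq_mul_le (M P x : ℝ) : (M ^ 2 * P) * hi M P x ^ 2 ≤ x ^ 4 := by
  unfold hi; split_ifs with h
  · have : (0:ℝ) ≤ x ^ 4 := by positivity
    simpa using this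
  · push Not at h
    have : x ^ 4 = x ^ 2 * x ^ 2 := by ring
    rw [this]
    exact mul_le_mul_of_nonneg_right h.le (sq_nonneg x)

lemma av_lo_le (M : ℝ) (c : ι → ℝ) :
    av (fun ε => lo M (∑ r, c r ^ 2) (rs univ c ε) ^ 2) ≤ ∑ r, c r ^ 2 := by
  rw [← av_rs_sq univ c]
  exact av_mono fun ε => lo_sq_le' _ _ _

lemma av_hi_le {M : ℝ} (hM : 0 < M) (c : ι → ℝ) :
    av (fun ε => hi M (∑ r, c r ^ 2) (rs univ c ε) ^ 2) ≤ 3 / M ^ 2 * ∑ r, c r ^ 2 := by
  set P := ∑ r, c r ^ 2 with hP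
  have hP0 : 0 ≤ P := sum_nonneg fun r _ => sq_nonneg _
  rcases hP0.eq_or_lt with h | h
  · have h1 : av (fun ε => hi M P (rs univ c ε) ^ 2) ≤ av (fun ε => rs univ c ε ^ 2) :=
      av_mono fun ε => hi_sq_le' _ _ _
    rw [av_rs_sq, ← hP] at h1
    have h2 : 3 / M ^ 2 * P = 0 := by rw [← h, mul_zero]
    rw [h2]
    exact h1.trans h.ge
  · have h1 : (M ^ 2 * P) * av (fun ε => hi M P (rs univ c ε) ^ 2) ≤ 3 * P ^ 2 := by
      rw [← av_mul_left]
      exact (av_mono fun ε => hi_sq_mul_le _ _ _).trans (av_rs_four univ c)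
    have h2 : 3 / M ^ 2 * P = (3 * P ^ 2) / (M ^ 2 * P) := by field_simp
    rw [h2, le_div_iff₀ (by positivity)]
    linarith

end Step

lemma bil_sum_left {κ : Type*} (s : Finset κ) (a : X → Y → ℝ) (α : κ → X → ℝ) (β : Y → ℝ) :
    bil a (fun x => ∑ r ∈ s, α r x) β = ∑ r ∈ s, bil a (α r) β := by
  simp only [bil, mul_sum, sum_mul]
  symm
  rw [sum_comm]
  refine sum_congr rfl fun x _ => ?_
  rw [sum_comm]

lemma bil_sum_right {κ : Type*} (s : Finset κ) (a : X → Y → ℝ) (α : X → ℝ) (β : κ → Y → ℝ) :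
    bil a α (fun y => ∑ r ∈ s, β r y) = ∑ r ∈ s, bil a α (β r) := by
  simp only [bil, mul_sum]
  symm
  rw [sum_comm]
  refine sum_congr rfl fun x _ => ?_
  rw [sum_comm]

lemma VB_step {a : X → Y → ℝ} {N₁ : Gauge X} {N₂ : Gauge Y} {τ G : ℝ} (hτ : 0 ≤ τ) (hG : 0 ≤ G)
    (h1 : ∀ α β, bil a α β ≤ τ * N₁.N (fun x => α x ^ 2) * N₂.N (fun y => β y ^ 2))
    (h2 : VB a N₁ N₂ G) : VB a N₁ N₂ (48 * τ + G / 2) := by
  classical
  intro ι _ α β
  set P : X → ℝ := fun x => ∑ r, α r x ^ 2 with hP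
  set Q : Y → ℝ := fun y => ∑ r, β r y ^ 2 with hQ
  have hP0 : ∀ x, 0 ≤ P x := fun x => sum_nonneg fun r _ => sq_nonneg _
  have hQ0 : ∀ x, 0 ≤ Q x := fun x => sum_nonneg fun r _ => sq_nonneg _
  obtain ⟨M, hM0, hM⟩ : ∃ M : ℝ, 0 < M ∧ M ^ 2 = 48 :=
    ⟨√48, by positivity, Real.sq_sqrt (by norm_num)⟩
  -- random functions
  set U : (ι → Bool) → X → ℝ := fun ε x => rs univ (fun r => α r x) ε with hU
  set V : (ι → Bool) → Y → ℝ := fun ε y => rs univ (fun r => β r y) ε with hV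
  set U' : (ι → Bool) → X → ℝ := fun ε x => lo M (P x) (U ε x) with hU'
  set U'' : (ι → Bool) → X → ℝ := fun ε x => hi M (P x) (U ε x) with hU''
  set V' : (ι → Bool) → Y → ℝ := fun ε y => lo M (Q y) (V ε y) with hV'
  set V'' : (ι → Bool) → Y → ℝ := fun ε y => hi M (Q y) (V ε y) with hV''
  have e1 : ∑ r, bil a (α r) (β r) = av (fun ε => bil a (U ε) (V ε)) := by
    have e2 : ∀ ε, bil a (U ε) (V ε)
        = ∑ r, ∑ k, bil a (α r) (β k) * (sg (ε r) * sg (ε k)) := by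
      intro ε
      simp only [hU, hV, rs]
      rw [bil_sum_left]
      refine sum_congr rfl fun r _ => ?_
      rw [bil_sum_right]
      refine sum_congr rfl fun k _ => ?_
      rw [bil_smul]
      ring
    simp_rw [e2]
    rw [av_sum]
    refine sum_congr rfl fun r _ => ?_
    rw [av_sum]
    simp_rw [av_mul_left, av_sg_mul]
    simp
  have e3 : ∀ ε, bil a (U ε) (V ε) = bil a (U' ε) (V' ε) + (bil a (U' ε) (V'' ε)
      + bil a (U'' ε) (V ε)) := by
    intro ε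
    have hu : U ε = fun x => U' ε x + U'' ε x := by
      ext x; exact (lo_add_hi _ _ _).symm
    have hv : V ε = fun y => V' ε y + V'' ε y := by
      ext x; exact (lo_add_hi _ _ _).symm
    calc bil a (U ε) (V ε) = bil a (fun x => U' ε x + U'' ε x) (V ε) := by rw [← hu]
      _ = bil a (U' ε) (V ε) + bil a (U'' ε) (V ε) := bil_add_left _ _ _ _
      _ = bil a (U' ε) (fun y => V' ε y + V'' ε y) + bil a (U'' ε) (V ε) := by rw [← hv]
      _ = _ := by rw [bil_add_right]; ring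
  have hN1 : 0 ≤ N₁.N P := N₁.nonneg _
  have hN2 : 0 ≤ N₂.N Q := N₂.nonneg _
  -- main term
  have b1 : av (fun ε => bil a (U' ε) (V' ε)) ≤ 48 * τ * N₁.N P * N₂.N Q := by
    have : ∀ ε, bil a (U' ε) (V' ε) ≤ 48 * τ * N₁.N P * N₂.N Q := by
      intro ε
      have m1 : N₁.N (fun x => U' ε x ^ 2) ≤ M * N₁.N P := by
        rw [← N₁.homog M P hM0.le hP0]
        exact N₁.mono _ _ (fun x => sq_nonneg _) (fun x => lo_sq_le _ (hP0 x) _)
      have m2 : N₂.N (fun x => V' ε x ^ 2) ≤ M * N₂.N Q := by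
        rw [← N₂.homog M Q hM0.le hQ0]
        exact N₂.mono _ _ (fun x => sq_nonneg _) (fun x => lo_sq_le _ (hQ0 x) _)
      calc bil a (U' ε) (V' ε) ≤ τ * N₁.N (fun x => U' ε x ^ 2) * N₂.N (fun y => V' ε y ^ 2) :=
            h1 _ _
        _ ≤ τ * (M * N₁.N P) * (M * N₂.N Q) := by
            gcongr
            exact N₂.nonneg _
        _ = M ^ 2 * τ * N₁.N P * N₂.N Q := by ring
        _ = _ := by rw [hM]
    exact (av_mono this).trans (av_const _).le
  -- errors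
  obtain ⟨c, hc0, hc⟩ : ∃ c : ℝ, 0 < c ∧ c ^ 2 = 1 / 2 ^ Fintype.card ι :=
    ⟨√(1 / 2 ^ Fintype.card ι), by positivity, Real.sq_sqrt (by positivity)⟩
  have avc : ∀ f : (ι → Bool) → ℝ, ∑ ε, c ^ 2 * f ε = av f := by
    intro f
    rw [← mul_sum, hc, av]
    ring
  have key : ∀ (S : (ι → Bool) → X → ℝ) (T : (ι → Bool) → Y → ℝ) (s t : ℝ), 0 ≤ s → 0 ≤ t →
      (∀ x, av (fun ε => S ε x ^ 2) ≤ s ^ 2 * P x) → (∀ y, av (fun ε => T ε y ^ 2) ≤ t ^ 2 * Q y) →
      av (fun ε => bil a (S ε) (T ε)) ≤ G * (s * N₁.N P) * (t * N₂.N Q) := by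
    intro S T s t hs ht hS hT
    have h3 := h2 (ι → Bool) (fun ε x => c * S ε x) (fun ε y => c * T ε y)
    have h4 : ∑ ε, bil a (fun x => c * S ε x) (fun y => c * T ε y)
        = av (fun ε => bil a (S ε) (T ε)) := by
      rw [← avc]
      refine sum_congr rfl fun ε _ => ?_
      rw [bil_smul]
      ring
    have h5 : ∀ x, ∑ ε, (c * S ε x) ^ 2 = av (fun ε => S ε x ^ 2) := by
      intro x
      rw [← avc]
      refine sum_congr rfl fun ε _ => ?_
      ring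
    have h6 : ∀ x, ∑ ε, (c * T ε x) ^ 2 = av (fun ε => T ε x ^ 2) := by
      intro x
      rw [← avc]
      refine sum_congr rfl fun ε _ => ?_
      ring
    rw [h4] at h3
    simp_rw [h5, h6] at h3
    refine h3.trans ?_
    have h7 : N₁.N (fun x => av (fun ε => S ε x ^ 2)) ≤ s * N₁.N P := by
      rw [← N₁.homog s P hs hP0]
      exact N₁.mono _ _ (fun x => av_nonneg fun ε => sq_nonneg _) hS
    have h8 : N₂.N (fun x => av (fun ε => T ε x ^ 2)) ≤ t * N₂.N Q := by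
      rw [← N₂.homog t Q ht hQ0]
      exact N₂.mono _ _ (fun x => av_nonneg fun ε => sq_nonneg _) hT
    have h9 : 0 ≤ N₂.N (fun x => av (fun ε => T ε x ^ 2)) := N₂.nonneg _
    have h10 : 0 ≤ N₁.N (fun x => av (fun ε => S ε x ^ 2)) := N₁.nonneg _
    gcongr
  have hi1 : ∀ (c : ι → ℝ), av (fun ε => hi M (∑ r, c r ^ 2) (rs univ c ε) ^ 2)
      ≤ (1 / 4 : ℝ) ^ 2 * ∑ r, c r ^ 2 := by
    intro c
    refine (av_hi_le hM0 c).trans (le_of_eq ?_)
    rw [hM]
    norm_num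
  have b2 : av (fun ε => bil a (U' ε) (V'' ε)) ≤ G * (1 * N₁.N P) * (1 / 4 * N₂.N Q) := by
    refine key U' V'' 1 (1 / 4) zero_le_one (by norm_num) (fun x => ?_) (fun y => ?_)
    · rw [one_pow, one_mul]
      exact av_lo_le M (fun r => α r x)
    · exact hi1 (fun r => β r y)
  have b3 : av (fun ε => bil a (U'' ε) (V ε)) ≤ G * (1 / 4 * N₁.N P) * (1 * N₂.N Q) := by
    refine key U'' V (1 / 4) 1 (by norm_num) zero_le_one (fun x => ?_) (fun y => ?_)
    · exact hi1 (fun r => α r x)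
    · rw [one_pow, one_mul]
      exact (av_rs_sq univ (fun r => β r y)).le
  rw [e1]
  simp_rw [e3]
  rw [av_add, av_add]
  calc _ ≤ 48 * τ * N₁.N P * N₂.N Q + (G * (1 * N₁.N P) * (1 / 4 * N₂.N Q)
        + G * (1 / 4 * N₁.N P) * (1 * N₂.N Q)) := by gcongr
    _ = _ := by ring

/-- **Vector tests**: a bilinear form dominated by `τ` times gauges of the squares is dominated on
vectors of functions, with constant `96 τ`. -/
theorem vector_bound {a : X → Y → ℝ} {N₁ : Gauge X} {N₂ : Gauge Y} {τ : ℝ} (hτ : 0 ≤ τ)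
    (h1 : ∀ α β, bil a α β ≤ τ * N₁.N (fun x => α x ^ 2) * N₂.N (fun y => β y ^ 2)) :
    VB a N₁ N₂ (96 * τ) := by
  obtain ⟨G, hG, hVB⟩ := exists_VB a N₁ N₂
  have h2 : ∀ k : ℕ, VB a N₁ N₂ (96 * τ + G / 2 ^ k) := by
    intro k
    induction k with
    | zero =>
      intro ι _ α β
      refine (hVB ι α β).trans ?_
      have := N₁.nonneg (fun x => ∑ r, α r x ^ 2)
      have := N₂.nonneg (fun x => ∑ r, β r x ^ 2)
      gcongr
      simp only [pow_zero, div_one]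
      linarith
    | succ k ih =>
      have h3 := VB_step hτ (by positivity) h1 ih
      have h4 : 48 * τ + (96 * τ + G / 2 ^ k) / 2 = 96 * τ + G / 2 ^ (k + 1) := by
        rw [pow_succ]; field_simp; ring
      rwa [h4] at h3
  intro ι _ α β
  set A := N₁.N (fun x => ∑ r, α r x ^ 2)
  set B := N₂.N (fun x => ∑ r, β r x ^ 2)
  have h3 : Filter.Tendsto (fun k : ℕ => (96 * τ + G / 2 ^ k) * A * B) Filter.atTop
      (nhds ((96 * τ + 0) * A * B)) := by
    refine Filter.Tendsto.mul_const _ (Filter.Tendsto.mul_const _ (Filter.Tendsto.const_add _ ?_))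
    have : ∀ k : ℕ, G / 2 ^ k = G * (1 / 2 : ℝ) ^ k := by
      intro k; rw [one_div, inv_pow]; rfl
    simp_rw [this]
    rw [show (0:ℝ) = G * 0 by simp]
    exact (tendsto_pow_atTop_nhds_zero_of_lt_one (by norm_num) (by norm_num)).const_mul G
  rw [add_zero] at h3
  exact ge_of_tendsto' h3 fun k => h2 k ι α β

end Vale.Agent.P141.H319
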