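import Vale.Agent.P141.H319.Extr

/-! # Caps and negligible parts at one node -/

namespace Vale.Agent.P141.H319

set_option linter.unusedSectionVars false

open Finset

/-- vector bound for product gauges, from scalar tests -/
theorem vb_of_tests {X Y : Type*} [Fintype X] [Fintype Y] {a : X → Y → ℝ} {p : X → ℝ} {q : Y → ℝ}
    (hp : ∀ x, 0 < p x) (hq : ∀ y, 0 < q y) {ε τ : ℝ} (h0 : 0 ≤ ε) (h1 : ε ≤ 1) (hτ : 0 ≤ τ)
    (h : ∀ α β, bil a α β ≤ τ * (pg p hp ε h0 h1).N (fun x => α x ^ 2)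
      * (pg q hq ε h0 h1).N (fun y => β y ^ 2)) :
    VB a (pg p hp ε h0 h1) (pg q hq ε h0 h1) (96 * τ) := vector_bound hτ h

/-- extraction from scalar tests, with prescribed measures of the bad sets -/
theorem extraction' {X Y : Type*} [Fintype X] [Fintype Y] {a : X → Y → ℝ} {p : X → ℝ} {q : Y → ℝ}
    (hp : ∀ x, 0 < p x) (hq : ∀ y, 0 < q y) {ε τ r s : ℝ} (h0 : 0 < ε) (h1 : ε ≤ 1) (hτ : 0 ≤ τ)
    (hr : 0 < r) (hs : 0 < s)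
    (h : ∀ α β, bil a α β ≤ τ * (pg p hp ε h0.le h1).N (fun x => α x ^ 2)
      * (pg q hq ε h0.le h1).N (fun y => β y ^ 2)) :
    ∃ (B₁ : Finset X) (B₂ : Finset Y), ∑ x ∈ B₁, p x ≤ 2 * r ∧
      ∑ y ∈ B₂, q y ≤ 2 * s ∧ ∀ (α : X → ℝ) (β : Y → ℝ), (∀ x ∈ B₁, α x = 0) →
        (∀ y ∈ B₂, β y = 0) → bil a α β ≤ 96 * τ * (r * s) ^ (-(ε / 2)) * L2 p α * L2 q β := by
  rcases hτ.eq_or_lt with h2 | h2
  · refine ⟨∅, ∅, by simpa using hr.le, by simpa using hs.le, fun α β _ _ => ?_⟩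
    refine (h α β).trans ?_
    rw [← h2]
    simp
  · set σ : ℝ := √(r * s) with hσ
    have hσ0 : 0 < σ := by positivity
    have hσ2 : σ ^ 2 = r * s := Real.sq_sqrt (by positivity)
    set μ : ℝ := √(r / σ) with hμ
    have hμ0 : 0 < μ := by positivity
    have hμ2 : μ ^ 2 = r / σ := Real.sq_sqrt (by positivity)
    have e1 : μ ^ 2 * σ = r := by rw [hμ2]; field_simp
    have e2 : (μ⁻¹) ^ 2 * σ = s := by
      rw [inv_pow, hμ2]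
      field_simp
      exact hσ2
    have e3 : (r * s) ^ (-(ε / 2)) = σ ^ (-ε) := by
      rw [← hσ2, ← Real.rpow_natCast, ← Real.rpow_mul hσ0.le]
      congr 1
      push_cast
      ring
    obtain ⟨B₁, B₂, hB1, hB2, hB⟩ := extraction a hp hq h0 h1 (G := 96 * τ)
      (κ := 96 * τ * (r * s) ^ (-(ε / 2))) (σ := σ) (μ := μ) (by positivity) (by positivity) hσ0 hμ0
      (by rw [e3, mul_assoc (96 * τ), ← Real.rpow_add hσ0]; simp)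
      (vb_of_tests hp hq h0.le h1 hτ h)
    rw [e1] at hB1
    rw [e2] at hB2
    exact ⟨B₁, B₂, hB1, hB2, hB⟩

section Caps

variable {X0 X1 X2 : Type*} [Fintype X0] [Fintype X1] [Fintype X2]

/-- product weights -/
def pw {X Y : Type*} (p : X → ℝ) (q : Y → ℝ) : X × Y → ℝ := fun z => p z.1 * q z.2

lemma pw_pos {X Y : Type*} {p : X → ℝ} {q : Y → ℝ} (hp : ∀ x, 0 < p x) (hq : ∀ y, 0 < q y) :
    ∀ z, 0 < pw p q z := fun z => mul_pos (hp z.1) (hq z.2)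

/-- the kernel on pairs coming from a function of three variables -/
def ker3 [DecidableEq X0] (p0 : X0 → ℝ) (p1 : X1 → ℝ) (p2 : X2 → ℝ) (D : X0 → X1 → X2 → ℝ) :
    X0 × X1 → X0 × X2 → ℝ :=
  fun a b => if a.1 = b.1 then p0 a.1 * p1 a.2 * p2 b.2 * D a.1 a.2 b.2 else 0

lemma bil_ker3 [DecidableEq X0] (p0 : X0 → ℝ) (p1 : X1 → ℝ) (p2 : X2 → ℝ) (D : X0 → X1 → X2 → ℝ)
    (α : X0 × X1 → ℝ) (β : X0 × X2 → ℝ) :
    bil (ker3 p0 p1 p2 D) α β =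
      ∑ x0, ∑ x1, ∑ x2, p0 x0 * p1 x1 * p2 x2 * (D x0 x1 x2 * α (x0, x1) * β (x0, x2)) := by
  simp only [bil, ker3, Fintype.sum_prod_type]
  refine sum_congr rfl fun x0 _ => sum_congr rfl fun x1 _ => ?_
  rw [sum_comm]
  refine sum_congr rfl fun x2 _ => ?_
  rw [sum_eq_single x0]
  · simp only [if_true]
    ring
  · intro b _ hb
    simp [hb.symm]
  · intro h
    exact absurd (mem_univ _) h

lemma L2_fib [DecidableEq X0] {p0 : X0 → ℝ} (hp0 : ∀ x, 0 < p0 x) (x0 : X0) (p : X1 → ℝ)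
    (f : X1 → ℝ) :
    L2 (pw p0 p) (fun z => if z.1 = x0 then f z.2 else 0) = √(p0 x0) * L2 p f := by
  unfold L2
  rw [← Real.sqrt_mul (hp0 x0).le]
  congr 1
  rw [Fintype.sum_prod_type, sum_eq_single x0]
  · rw [mul_sum]
    refine sum_congr rfl fun x _ => ?_
    simp [pw]
    ring
  · intro b _ hb
    simp [hb]
  · intro h
    exact absurd (mem_univ _) h

/-- **Caps at a node.** `D x0 x1 x2 = u x1 x2 * G x0 x1 x2` tested by products; off two small sets of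
pairs `(x0, x1)`, `(x0, x2)` all fibres have small operator norm. -/
theorem node_caps {p0 : X0 → ℝ} {p1 : X1 → ℝ} {p2 : X2 → ℝ} (hp0 : ∀ x, 0 < p0 x)
    (hp1 : ∀ x, 0 < p1 x) (hp2 : ∀ x, 0 < p2 x) (D : X0 → X1 → X2 → ℝ) {ε τ r s : ℝ} (h0 : 0 < ε)
    (h1 : ε ≤ 1) (hτ : 0 ≤ τ) (hr : 0 < r) (hs : 0 < s)
    (h : ∀ (α : X0 × X1 → ℝ) (β : X0 × X2 → ℝ),
      ∑ x0, ∑ x1, ∑ x2, p0 x0 * p1 x1 * p2 x2 * (D x0 x1 x2 * α (x0, x1) * β (x0, x2)) ≤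
        τ * (pg (pw p0 p1) (pw_pos hp0 hp1) ε h0.le h1).N (fun x => α x ^ 2)
          * (pg (pw p0 p2) (pw_pos hp0 hp2) ε h0.le h1).N (fun x => β x ^ 2)) :
    ∃ (B₁ : Finset (X0 × X1)) (B₂ : Finset (X0 × X2)), ∑ x ∈ B₁, pw p0 p1 x ≤ 2 * r ∧
      ∑ x ∈ B₂, pw p0 p2 x ≤ 2 * s ∧ ∀ (x0 : X0) (α : X1 → ℝ) (β : X2 → ℝ),
        (∀ x1, (x0, x1) ∈ B₁ → α x1 = 0) → (∀ x2, (x0, x2) ∈ B₂ → β x2 = 0) →
        ∑ x1, ∑ x2, p1 x1 * p2 x2 * (D x0 x1 x2 * α x1 * β x2) ≤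
          96 * τ * (r * s) ^ (-(ε / 2)) * L2 p1 α * L2 p2 β := by
  classical
  obtain ⟨B₁, B₂, hB1, hB2, hB⟩ := extraction' (a := ker3 p0 p1 p2 D) (pw_pos hp0 hp1)
    (pw_pos hp0 hp2) h0 h1 hτ hr hs (fun α β => by rw [bil_ker3]; exact h α β)
  refine ⟨B₁, B₂, hB1, hB2, fun x0 α β hα hβ => ?_⟩
  have h2 := hB (fun z => if z.1 = x0 then α z.2 else 0) (fun z => if z.1 = x0 then β z.2 else 0)
    (by
      rintro ⟨y0, x1⟩ hz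
      by_cases h3 : y0 = x0
      · subst h3; simpa using hα x1 hz
      · simp [h3])
    (by
      rintro ⟨y0, x1⟩ hz
      by_cases h3 : y0 = x0
      · subst h3; simpa using hβ x1 hz
      · simp [h3])
  rw [bil_ker3, sum_eq_single x0] at h2
  rotate_left
  · intro b _ hb
    simp [hb]
  · intro h
    exact absurd (mem_univ _) h
  rw [L2_fib hp0, L2_fib hp0] at h2
  simp only [if_true] at h2
  have h3 : 0 < p0 x0 := hp0 x0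
  have h4 : √(p0 x0) * √(p0 x0) = p0 x0 := Real.mul_self_sqrt h3.le
  refine le_of_mul_le_mul_left ?_ h3
  calc p0 x0 * ∑ x1, ∑ x2, p1 x1 * p2 x2 * (D x0 x1 x2 * α x1 * β x2)
      = ∑ x1, ∑ x2, p0 x0 * p1 x1 * p2 x2 * (D x0 x1 x2 * α x1 * β x2) := by
        rw [mul_sum]
        refine sum_congr rfl fun x1 _ => ?_
        rw [mul_sum]
        refine sum_congr rfl fun x2 _ => ?_
        ring
    _ ≤ 96 * τ * (r * s) ^ (-(ε / 2)) * (√(p0 x0) * L2 p1 α) * (√(p0 x0) * L2 p2 β) := h2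
    _ = (√(p0 x0) * √(p0 x0)) * (96 * τ * (r * s) ^ (-(ε / 2)) * L2 p1 α * L2 p2 β) := by ring
    _ = _ := by rw [h4]

end Caps

section Err

variable {X0 X2 X3 : Type*} {X1 : Type} [Fintype X0] [Fintype X1] [Fintype X2] [Fintype X3]

/-- **Negligible parts at a node.** The matrix `D x0 x2 x3 = u x2 x3 * G x0 x2 x3` is tested by the
vectors of functions `A (·, x1, ·)`, `C (·, x1, ·)`. -/
theorem node_err {p0 : X0 → ℝ} {p1 : X1 → ℝ} {p2 : X2 → ℝ} {p3 : X3 → ℝ} (hp0 : ∀ x, 0 < p0 x)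
    (hp1 : ∀ x, 0 < p1 x) (hp2 : ∀ x, 0 < p2 x) (hp3 : ∀ x, 0 < p3 x) (D : X0 → X2 → X3 → ℝ)
    {ε τ : ℝ} (h0 : 0 ≤ ε) (h1 : ε ≤ 1) (hτ : 0 ≤ τ)
    (h : ∀ (α : X0 × X2 → ℝ) (β : X0 × X3 → ℝ),
      ∑ x0, ∑ x2, ∑ x3, p0 x0 * p2 x2 * p3 x3 * (D x0 x2 x3 * α (x0, x2) * β (x0, x3)) ≤
        τ * (pg (pw p0 p2) (pw_pos hp0 hp2) ε h0 h1).N (fun x => α x ^ 2)
          * (pg (pw p0 p3) (pw_pos hp0 hp3) ε h0 h1).N (fun x => β x ^ 2))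
    (A : X0 → X1 → X2 → ℝ) (C : X0 → X1 → X3 → ℝ) {eA eC mA mC : ℝ} (hmA : 0 ≤ mA) (hmC : 0 ≤ mC)
    (hA : ∑ x0, ∑ x1, ∑ x2, p0 x0 * p1 x1 * p2 x2 * A x0 x1 x2 ^ 2 ≤ eA)
    (hC : ∑ x0, ∑ x1, ∑ x3, p0 x0 * p1 x1 * p3 x3 * C x0 x1 x3 ^ 2 ≤ eC)
    (hA' : ∀ x0 x2, ∑ x1, p1 x1 * A x0 x1 x2 ^ 2 ≤ mA)
    (hC' : ∀ x0 x3, ∑ x1, p1 x1 * C x0 x1 x3 ^ 2 ≤ mC) :
    ∑ x0, p0 x0 * |∑ x1, ∑ x2, ∑ x3, p1 x1 * p2 x2 * p3 x3 *
      (A x0 x1 x2 * D x0 x2 x3 * C x0 x1 x3)| ≤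
      96 * τ * (eA * eC) ^ ((1 - ε) / 2) * (mA * mC) ^ (ε / 2) := by
  classical
  set T : X0 → ℝ := fun x0 => ∑ x1, ∑ x2, ∑ x3, p1 x1 * p2 x2 * p3 x3 *
      (A x0 x1 x2 * D x0 x2 x3 * C x0 x1 x3) with hT
  set sn : X0 → ℝ := fun x0 => if 0 ≤ T x0 then 1 else -1 with hsn
  have hsn2 : ∀ x0, sn x0 ^ 2 = 1 := by
    intro x0
    simp only [hsn]
    split_ifs <;> norm_num
  have habs : ∀ x0, |T x0| = sn x0 * T x0 := by
    intro x0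
    simp only [hsn]
    split_ifs with h3
    · rw [abs_of_nonneg h3, one_mul]
    · rw [abs_of_neg (not_le.1 h3)]; ring
  have hVB := vb_of_tests (a := ker3 p0 p2 p3 D) (pw_pos hp0 hp2) (pw_pos hp0 hp3) h0 h1 hτ
    (fun α β => by rw [bil_ker3]; exact h α β)
  have key := hVB X1 (fun x1 z => √(p1 x1) * A z.1 x1 z.2)
    (fun x1 z => √(p1 x1) * (sn z.1 * C z.1 x1 z.2))
  have e1 : ∑ x1, bil (ker3 p0 p2 p3 D) (fun z => √(p1 x1) * A z.1 x1 z.2)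
      (fun z => √(p1 x1) * (sn z.1 * C z.1 x1 z.2)) = ∑ x0, p0 x0 * |T x0| := by
    simp_rw [bil_smul, bil_ker3, habs, hT, mul_sum]
    rw [sum_comm]
    refine sum_congr rfl fun x0 _ => sum_congr rfl fun x1 _ => sum_congr rfl fun x2 _ =>
      sum_congr rfl fun x3 _ => ?_
    have : √(p1 x1) * √(p1 x1) = p1 x1 := Real.mul_self_sqrt (hp1 x1).le
    calc _ = (√(p1 x1) * √(p1 x1)) * (p0 x0 * p2 x2 * p3 x3 * (D x0 x2 x3 * A x0 x1 x2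
          * (sn x0 * C x0 x1 x3))) := by ring
      _ = _ := by rw [this]; ring
  have e2 : ∀ z : X0 × X2, ∑ x1, (√(p1 x1) * A z.1 x1 z.2) ^ 2 = ∑ x1, p1 x1 * A z.1 x1 z.2 ^ 2 := by
    intro z
    refine sum_congr rfl fun x1 _ => ?_
    rw [mul_pow, Real.sq_sqrt (hp1 x1).le]
  have e3 : ∀ z : X0 × X3, ∑ x1, (√(p1 x1) * (sn z.1 * C z.1 x1 z.2)) ^ 2
      = ∑ x1, p1 x1 * C z.1 x1 z.2 ^ 2 := by
    intro z
    refine sum_congr rfl fun x1 _ => ?_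
    rw [mul_pow, mul_pow, Real.sq_sqrt (hp1 x1).le, hsn2, one_mul]
  rw [e1] at key
  refine key.trans ?_
  simp_rw [e2, e3]
  have n1 : ∀ z : X0 × X2, 0 ≤ ∑ x1, p1 x1 * A z.1 x1 z.2 ^ 2 := fun z =>
    sum_nonneg fun x1 _ => mul_nonneg (hp1 x1).le (sq_nonneg _)
  have n2 : ∀ z : X0 × X3, 0 ≤ ∑ x1, p1 x1 * C z.1 x1 z.2 ^ 2 := fun z =>
    sum_nonneg fun x1 _ => mul_nonneg (hp1 x1).le (sq_nonneg _)
  have f1 : L1 (pw p0 p2) (fun z => ∑ x1, p1 x1 * A z.1 x1 z.2 ^ 2) ≤ eA := by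
    refine le_trans (le_of_eq ?_) hA
    unfold L1
    simp_rw [abs_of_nonneg (n1 _), Fintype.sum_prod_type, pw, mul_sum]
    refine sum_congr rfl fun x0 _ => ?_
    rw [sum_comm]
    refine sum_congr rfl fun x1 _ => sum_congr rfl fun x2 _ => ?_
    ring
  have f2 : L1 (pw p0 p3) (fun z => ∑ x1, p1 x1 * C z.1 x1 z.2 ^ 2) ≤ eC := by
    refine le_trans (le_of_eq ?_) hC
    unfold L1
    simp_rw [abs_of_nonneg (n2 _), Fintype.sum_prod_type, pw, mul_sum]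
    refine sum_congr rfl fun x0 _ => ?_
    rw [sum_comm]
    refine sum_congr rfl fun x1 _ => sum_congr rfl fun x2 _ => ?_
    ring
  have f3 : Li (fun z : X0 × X2 => ∑ x1, p1 x1 * A z.1 x1 z.2 ^ 2) ≤ mA :=
    Li_le hmA fun z => by rw [abs_of_nonneg (n1 z)]; exact hA' _ _
  have f4 : Li (fun z : X0 × X3 => ∑ x1, p1 x1 * C z.1 x1 z.2 ^ 2) ≤ mC :=
    Li_le hmC fun z => by rw [abs_of_nonneg (n2 z)]; exact hC' _ _
  have g1 := pg_N_le (hp := pw_pos hp0 hp2) (h0 := h0) (h1 := h1) f1 f3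
  have g2 := pg_N_le (hp := pw_pos hp0 hp3) (h0 := h0) (h1 := h1) f2 f4
  have eA0 : 0 ≤ eA := (L1_nonneg (pw_pos hp0 hp2) _).trans f1
  have eC0 : 0 ≤ eC := (L1_nonneg (pw_pos hp0 hp3) _).trans f2
  calc _ ≤ 96 * τ * (eA ^ ((1 - ε) / 2) * mA ^ (ε / 2)) * (eC ^ ((1 - ε) / 2) * mC ^ (ε / 2)) := by
        have := (pg (pw p0 p3) (pw_pos hp0 hp3) ε h0 h1).nonneg
          (fun z => ∑ x1, p1 x1 * C z.1 x1 z.2 ^ 2)
        have := (pg (pw p0 p2) (pw_pos hp0 hp2) ε h0 h1).nonneg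
          (fun z => ∑ x1, p1 x1 * A z.1 x1 z.2 ^ 2)
        gcongr
    _ = _ := by
        rw [Real.mul_rpow eA0 eC0, Real.mul_rpow hmA hmC]
        ring

end Err

end Vale.Agent.P141.H319
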