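import Mathlib

/-! # Rademacher averages and vector tests

Finite sign averages, and Grothendieck's inequality by truncation for bilinear forms
dominated by two monotone homogeneous gauges of the squares. -/

namespace Vale.Agent.P141.H319

set_option linter.unusedSectionVars false

open Finset

section Signs

variable {ι : Type*} [Fintype ι] [DecidableEq ι]

/-- the sign of a bit -/
def sg (b : Bool) : ℝ := if b then 1 else -1

lemma sg_not (b : Bool) : sg (!b) = - sg b := by cases b <;> simp [sg]

lemma sg_sq (b : Bool) : sg b ^ 2 = 1 := by cases b <;> simp [sg]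

/-- average over all sign patterns -/
noncomputable def av (f : (ι → Bool) → ℝ) : ℝ := (∑ ε, f ε) / 2 ^ Fintype.card ι

lemma av_add (f g : (ι → Bool) → ℝ) : av (fun ε => f ε + g ε) = av f + av g := by
  simp [av, sum_add_distrib, add_div]

lemma av_mul_left (c : ℝ) (f : (ι → Bool) → ℝ) : av (fun ε => c * f ε) = c * av f := by
  simp [av, ← mul_sum, mul_div_assoc]

lemma av_const (c : ℝ) : av (fun _ : ι → Bool => c) = c := by
  simp [av]

lemma av_mono {f g : (ι → Bool) → ℝ} (h : ∀ ε, f ε ≤ g ε) : av f ≤ av g := by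
  unfold av
  gcongr
  exact h _

lemma av_nonneg {f : (ι → Bool) → ℝ} (h : ∀ ε, 0 ≤ f ε) : 0 ≤ av f := by
  unfold av
  exact div_nonneg (sum_nonneg fun ε _ => h ε) (by positivity)

lemma av_sum {κ : Type*} (s : Finset κ) (f : κ → (ι → Bool) → ℝ) :
    av (fun ε => ∑ k ∈ s, f k ε) = ∑ k ∈ s, av (f k) := by
  unfold av
  rw [sum_comm, sum_div]

/-- flip one sign -/
def flp (r : ι) : (ι → Bool) ≃ (ι → Bool) where
  toFun ε := Function.update ε r (!ε r)
  invFun ε := Function.update ε r (!ε r)
  left_inv ε := by simp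
  right_inv ε := by simp

lemma flp_same (r : ι) (ε : ι → Bool) : flp r ε r = !ε r := by simp [flp]

lemma flp_ne {r s : ι} (h : s ≠ r) (ε : ι → Bool) : flp r ε s = ε s := by
  simp [flp, Function.update_of_ne h]

lemma av_flp (r : ι) (f : (ι → Bool) → ℝ) : av (fun ε => f (flp r ε)) = av f := by
  unfold av
  congr 1
  exact Equiv.sum_comp (flp r) f

/-- average of a function through its symmetrisation in one sign -/
lemma av_symm (r : ι) (f : (ι → Bool) → ℝ) : av f = av (fun ε => (f ε + f (flp r ε)) / 2) := by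
  have h := av_flp r f
  have : av (fun ε => (f ε + f (flp r ε)) / 2) = (1 / 2) * (av f + av (fun ε => f (flp r ε))) := by
    rw [← av_add, ← av_mul_left]
    congr 1
    ext ε
    ring
  rw [this, h]
  ring

/-- random sum -/
def rs (s : Finset ι) (c : ι → ℝ) (ε : ι → Bool) : ℝ := ∑ r ∈ s, sg (ε r) * c r

lemma rs_flp {s : Finset ι} {r : ι} (hr : r ∉ s) (c : ι → ℝ) (ε : ι → Bool) :
    rs s c (flp r ε) = rs s c ε := by
  unfold rs
  refine sum_congr rfl fun k hk => ?_
  rw [flp_ne (r := r) (s := k) (by rintro rfl; exact hr hk)]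

lemma av_rs_sq (s : Finset ι) (c : ι → ℝ) : av (fun ε => rs s c ε ^ 2) = ∑ r ∈ s, c r ^ 2 := by
  induction s using Finset.induction_on with
  | empty => simp [rs, av]
  | insert r s hr ih =>
    rw [sum_insert hr, ← ih, av_symm r]
    have : ∀ ε, (rs (insert r s) c ε ^ 2 + rs (insert r s) c (flp r ε) ^ 2) / 2
        = c r ^ 2 + rs s c ε ^ 2 := by
      intro ε
      have h1 : rs (insert r s) c ε = sg (ε r) * c r + rs s c ε := by
        simp [rs, sum_insert hr]
      have h2 : rs (insert r s) c (flp r ε) = - sg (ε r) * c r + rs s c ε := by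
        rw [← rs_flp hr c ε]
        simp [rs, sum_insert hr, flp_same, sg_not]
      rw [h1, h2]
      have := sg_sq (ε r)
      linear_combination (c r ^ 2) * this
    simp_rw [this]
    rw [av_add, av_const]

lemma av_rs_four (s : Finset ι) (c : ι → ℝ) :
    av (fun ε => rs s c ε ^ 4) ≤ 3 * (∑ r ∈ s, c r ^ 2) ^ 2 := by
  induction s using Finset.induction_on with
  | empty => simp [rs, av]
  | insert r s hr ih =>
    rw [sum_insert hr, av_symm r]
    have : ∀ ε, (rs (insert r s) c ε ^ 4 + rs (insert r s) c (flp r ε) ^ 4) / 2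
        = c r ^ 4 + ((6 * c r ^ 2) * rs s c ε ^ 2 + rs s c ε ^ 4) := by
      intro ε
      have h1 : rs (insert r s) c ε = sg (ε r) * c r + rs s c ε := by
        simp [rs, sum_insert hr]
      have h2 : rs (insert r s) c (flp r ε) = - sg (ε r) * c r + rs s c ε := by
        rw [← rs_flp hr c ε]
        simp [rs, sum_insert hr, flp_same, sg_not]
      rw [h1, h2]
      have h3 := sg_sq (ε r)
      have h4 : sg (ε r) ^ 4 = 1 := by
        calc sg (ε r) ^ 4 = (sg (ε r) ^ 2) ^ 2 := by ring
          _ = 1 := by rw [h3]; norm_num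
      linear_combination (c r ^ 4) * h4 + (6 * c r ^ 2 * rs s c ε ^ 2) * h3
    simp_rw [this]
    rw [av_add, av_const, av_add, av_mul_left, av_rs_sq]
    have h0 : 0 ≤ ∑ r ∈ s, c r ^ 2 := sum_nonneg fun _ _ => sq_nonneg _
    nlinarith [sq_nonneg (c r), sq_nonneg (c r ^ 2), mul_nonneg (sq_nonneg (c r)) h0]

lemma av_sg_mul (r k : ι) : av (fun ε : ι → Bool => sg (ε r) * sg (ε k)) = if r = k then 1 else 0 := by
  split_ifs with h
  · subst h
    have : ∀ ε : ι → Bool, sg (ε r) * sg (ε r) = 1 := fun ε => by rw [← sq, sg_sq]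
    simp_rw [this]
    exact av_const 1
  · rw [av_symm r]
    have : ∀ ε : ι → Bool, (sg (ε r) * sg (ε k) + sg (flp r ε r) * sg (flp r ε k)) / 2 = 0 := by
      intro ε
      rw [flp_same, flp_ne (Ne.symm h), sg_not]
      ring
    simp_rw [this]
    exact av_const 0

end Signs

end Vale.Agent.P141.H319
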